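import Vale.Agent.P165.MainX
import Vale.Agent.P165.Q.QMain2

/-!
# P165: nonuniqueness for all large powers of every nonamenable quasi-transitive graph

(1) For every infinite connected locally finite nonamenable quasi-transitive graph `G` (the class
of Q1) all large powers `G^(k)` satisfy `p_c < p_u`.
(2) `p_c < p_u` for every infinite connected vertex-transitive `d`-regular graph with edge
expansion at least `ε d` as soon as `d > 432 / ε ^ 6`.
(3) For every nonamenable vertex-transitive graph `G` all large Cartesian powers have `p_c < p_u`.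
-/

namespace Vale.Agent.Results.P165.AllPowers

open Vale.Agent.P165

theorem result :
    (∀ (V : Type) [DecidableEq V] [Infinite V] (G : SimpleGraph V) [G.LocallyFinite] (h : ℝ),
      G.Connected → QT.Quasi G → 0 < h →
      (∀ A : Finset V, h * (A.card : ℝ) ≤ ((Pow.vbd G A).card : ℝ)) →
      ∃ k₀ : ℕ, ∀ k, k₀ ≤ k → pc (pw G k) < pu (pw G k)) ∧
    (∀ (V : Type) [DecidableEq V] [Infinite V] (G : SimpleGraph V) [G.LocallyFinite]
      (d : ℕ) (ε : ℝ), G.Connected → (∀ x y : V, ∃ φ : G ≃g G, φ x = y) →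
      G.IsRegularOfDegree d → 0 < ε → 432 / ε ^ 6 < (d : ℝ) →
      (∀ A : Finset V, ε * (d : ℝ) * (A.card : ℝ) ≤ (ebd G A : ℝ)) → pc G < pu G) ∧
    (∀ (V : Type) [DecidableEq V] [Infinite V] (G : SimpleGraph V) [G.LocallyFinite] (h : ℝ),
      G.Connected → (∀ x y : V, ∃ φ : G ≃g G, φ x = y) → 0 < h →
      (∀ A : Finset V, h * (A.card : ℝ) ≤ ((Pow.vbd G A).card : ℝ)) →
      ∃ n₀ : ℕ, ∀ n, n₀ ≤ n → pc (cart G n) < pu (cart G n)) := by
  refine ⟨?_, ?_, ?_⟩
  · intro V _ _ G _ h hc hF h0 hA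
    exact QT.qt_pow G hc hF h0 hA
  · intro V _ _ G _ d ε hc ht hreg hε hd hE
    exact MainX.main_explicit G hc ht hε hreg hd hE
  · intro V _ _ G _ h hc ht h0 hA
    exact MainX.cart_main V G hc ht h0 hA

end Vale.Agent.Results.P165.AllPowers
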