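import Vale.Agent.P165.Main
import Vale.Agent.P165.PowMain
import Vale.Agent.P165.Cart

/-!
# P165: nonuniqueness for transitive graphs of large degree, for all large powers and for all
large Cartesian powers of every nonamenable transitive graph
-/

open Finset

namespace Vale.Agent.Results.P165.LargeDegree

open Vale.Agent.P165

/-- (1) Every infinite connected vertex-transitive graph `G` of degree `d`, whose finite vertex
sets `A` all have at least `ε d |A|` boundary edges, satisfies `p_c(G) < p_u(G)` as soon as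
`ε ^ 6 d ≥ 300`.
(2) For every infinite connected locally finite vertex-transitive nonamenable graph `G` there is
`k₀` such that for all `k ≥ k₀` the power `G^(k)` (different vertices at distance at most `k` are
adjacent) satisfies `p_c < p_u`.
(3) The same for the `n`-th Cartesian power of `G`, for all large `n`. -/
theorem result :
    (∀ (V : Type) [DecidableEq V] (G : SimpleGraph V) [G.LocallyFinite] (d : ℕ) (ε : ℝ),
      Infinite V → G.Connected → (∀ x y : V, ∃ φ : G ≃g G, φ x = y) →
      G.IsRegularOfDegree d → 0 < ε → 300 ≤ ε ^ 6 * d →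
      (∀ A : Finset V, ε * d * A.card ≤ (ebd G A : ℝ)) →
      pc G < pu G) ∧
    (∀ (V : Type) [DecidableEq V] (G : SimpleGraph V) [G.LocallyFinite],
      Infinite V → G.Connected → (∀ x y : V, ∃ φ : G ≃g G, φ x = y) →
      (∃ h : ℝ, 0 < h ∧ ∀ A : Finset V, h * A.card ≤ ((Pow.vbd G A).card : ℝ)) →
      (∃ k₀ : ℕ, ∀ k, k₀ ≤ k → pc (pw G k) < pu (pw G k)) ∧
      (∃ n₀ : ℕ, ∀ n, n₀ ≤ n → pc (cart G n) < pu (cart G n))) := by
  have h1 : ∀ (V : Type) [DecidableEq V] (G : SimpleGraph V) [G.LocallyFinite] (d : ℕ) (ε : ℝ),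
      Infinite V → G.Connected → (∀ x y : V, ∃ φ : G ≃g G, φ x = y) →
      G.IsRegularOfDegree d → 0 < ε → 300 ≤ ε ^ 6 * d →
      (∀ A : Finset V, ε * d * A.card ≤ (ebd G A : ℝ)) →
      pc G < pu G := by
    intro V _ G _ d ε hinf hconn htr hreg hε hd hE
    exact main_explicit hinf hconn htr hreg hε hd hE
  have hM : Pow.MainStmt := by
    intro ε hε
    obtain ⟨D0, hD0⟩ := exists_nat_gt (300 / ε ^ 6)
    refine ⟨D0, fun V _ hinf G _ d hconn htr hreg hd hE => ?_⟩
    refine h1 V G d ε hinf hconn htr hreg hε ?_ hE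
    have h6 : 0 < ε ^ 6 := by positivity
    rw [div_lt_iff₀ h6] at hD0
    have : (D0 : ℝ) ≤ d := by exact_mod_cast hd
    nlinarith
  refine ⟨h1, fun V _ G _ hinf hconn htr hna => ?_⟩
  obtain ⟨h, h0, hA⟩ := hna
  haveI := hinf
  exact ⟨Pow.of_main hM V G hconn htr h0 hA, Cart.of_main hM V G hconn htr h0 hA⟩

end Vale.Agent.Results.P165.LargeDegree
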