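import Vale.Agent.P165.MainX
import Vale.Agent.P165.Q.QMain2
import Vale.Agent.P165.Blow

/-!
# P165: nonuniqueness in terms of the spectral radius, for quasi-transitive graphs; large powers,
blow-ups and Cartesian powers
-/

open MeasureTheory

namespace Vale.Agent.Results.P165.Spectral

open Vale.Agent.P165

/-- (1) Every infinite connected quasi-transitive `d`-regular graph with spectral radius at most
`1 - δ` and `δ ^ 3 d ≥ 54` has `p_c < p_u`.
(2) The same for irregular quasi-transitive graphs with a weight `w` with values in `[1, R]`,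
`A w ≥ Λ w`, degrees at most `R Λ`, closed walks at most `((1 - δ) Λ) ^ k`, `Λ δ ^ 3 ≥ 54 R ^ 2`.
(3) Without any symmetry: in the situation of (1), without quasi-transitivity, for all `p` with
`(1 + δ / 4) / d < p ≤ (1 + δ / 2) / d` there is an infinite cluster with positive probability,
and there is not almost surely exactly one.
(4) For every infinite connected locally finite nonamenable quasi-transitive graph all large
powers have `p_c < p_u`.
(5) For every infinite connected nonamenable quasi-transitive regular graph all large blow-ups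
have `p_c < p_u`.
(6) For every infinite connected locally finite nonamenable transitive graph all large Cartesian
powers have `p_c < p_u`. -/
theorem result :
    (∀ (V : Type) [DecidableEq V] [Infinite V] (G : SimpleGraph V) [G.LocallyFinite]
      (d : ℕ) (δ : ℝ), G.Connected → QT.Quasi G → G.IsRegularOfDegree d → 0 < δ →
      54 ≤ δ ^ 3 * (d : ℝ) →
      (∀ (k : ℕ) (x : V), nw G k x x ≤ ((1 - δ) * (d : ℝ)) ^ k) → pc G < pu G) ∧
    (∀ (V : Type) [DecidableEq V] [Infinite V] (G : SimpleGraph V) [G.LocallyFinite]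
      (w : V → ℝ) (R Λ δ : ℝ), G.Connected → QT.Quasi G → (∀ x, 1 ≤ w x ∧ w x ≤ R) →
      (∀ y, Λ * w y ≤ ∑ x ∈ G.neighborFinset y, w x) →
      (∀ y, (G.degree y : ℝ) ≤ R * Λ) → 0 < δ → δ < 1 → 54 * R ^ 2 ≤ Λ * δ ^ 3 →
      (∀ (k : ℕ) (x : V), nw G k x x ≤ ((1 - δ) * Λ) ^ k) → pc G < pu G) ∧
    (∀ (V : Type) [DecidableEq V] [Infinite V] (G : SimpleGraph V) [G.LocallyFinite]
      (d : ℕ) (δ : ℝ), G.Connected → G.IsRegularOfDegree d → 0 < δ → δ < 1 →
      54 ≤ δ ^ 3 * (d : ℝ) →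
      (∀ (k : ℕ) (x : V), nw G k x x ≤ ((1 - δ) * (d : ℝ)) ^ k) →
      ∀ p : unitInterval, (1 + δ / 4) / (d : ℝ) < (p : ℝ) → (p : ℝ) ≤ (1 + δ / 2) / (d : ℝ) →
        0 < perc V p {ω | ∃ C : (opn G ω).ConnectedComponent, C.supp.Infinite} ∧
        ¬ ∀ᵐ ω ∂(perc V p), ∃! C : (opn G ω).ConnectedComponent, C.supp.Infinite) ∧
    (∀ (V : Type) [DecidableEq V] [Infinite V] (G : SimpleGraph V) [G.LocallyFinite] (h : ℝ),
      G.Connected → QT.Quasi G → 0 < h →
      (∀ A : Finset V, h * (A.card : ℝ) ≤ ((Pow.vbd G A).card : ℝ)) →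
      ∃ k₀ : ℕ, ∀ k, k₀ ≤ k → pc (pw G k) < pu (pw G k)) ∧
    (∀ (V : Type) [DecidableEq V] [Infinite V] (G : SimpleGraph V) [G.LocallyFinite]
      (d : ℕ) (h : ℝ), G.Connected → QT.Quasi G → G.IsRegularOfDegree d → 0 < h →
      (∀ A : Finset V, h * (A.card : ℝ) ≤ ((Pow.vbd G A).card : ℝ)) →
      ∃ m₀ : ℕ, ∀ m, m₀ ≤ m → pc (blow G m) < pu (blow G m)) ∧
    (∀ (V : Type) [DecidableEq V] [Infinite V] (G : SimpleGraph V) [G.LocallyFinite] (h : ℝ),
      G.Connected → (∀ x y : V, ∃ φ : G ≃g G, φ x = y) → 0 < h →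
      (∀ A : Finset V, h * (A.card : ℝ) ≤ ((Pow.vbd G A).card : ℝ)) →
      ∃ n₀ : ℕ, ∀ n, n₀ ≤ n → pc (cart G n) < pu (cart G n)) := by
  refine ⟨?_, ?_, ?_, ?_, ?_, ?_⟩
  · intro V _ _ G _ d δ hc hF hreg h0 hd hret
    exact main_spectral hc (quasi_iff hF) hreg h0 hd hret
  · intro V _ _ G _ w R Λ δ hc hF hw hΛ hdeg h0 h1 hL hret
    exact main_weighted hc (quasi_iff hF) (fun x => (hw x).1) (fun x => (hw x).2) hΛ hdeg h0 h1
      hL hret
  · intro V _ _ G _ d δ hc hreg h0 h1 hd hret p hp1 hp0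
    refine interval_weighted hc (w := fun _ => 1) (R := 1) (Lam := d) (δ := δ)
      (fun _ => le_rfl) (fun _ => le_rfl) (fun y => ?_) (fun y => ?_) h0 h1 (by nlinarith)
      hret p hp1 hp0
    · rw [Finset.sum_const, nsmul_eq_mul, SimpleGraph.card_neighborFinset_eq_degree, hreg y]
    · rw [hreg y, one_mul]
  · intro V _ _ G _ h hc hF h0 hA
    exact QT.qt_pow G hc hF h0 hA
  · intro V _ _ G _ d h hc hF hreg h0 hA
    exact blow_nonamenable hc hF hreg h0 hA
  · intro V _ _ G _ h hc ht h0 hA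
    exact MainX.cart_main V G hc ht h0 hA

end Vale.Agent.Results.P165.Spectral
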